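import Vale.Agent.P365.T2.SeqGB795

/-!
# P365-T2, block B6b: choice of the number of families and of the background for a given scale

`m = 2 ^ k`, `rs = 2 ^ j`, radii `rr β rs i = rs ^ (β ^ i)`, block sides `mS β rs i = 8 * rr β rs i`,
background `bS β rs I = (1/2)^(2 * (rr β rs (I+1))^5)`.
For `k ≥ K` there is `I ≥ i₀` such that
* all block sides `mS β rs i`, `i ≤ I`, divide `2 ^ k`,
* the leads and the background are tiny: `bS + c / 2^k ≤ exp (-(rr β rs I)^κ)`,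
* the background is smaller than any power of the scale: `bS ≤ (1 / 2^k)^C`.
-/

set_option linter.all false

namespace P365T2.H135

open Real Filter Topology P365T2.SeqG

variable {β : ℕ} [hβ : Fact (2 ≤ β)]

theorem exists_last {P : ℕ → Prop} {i₀ k : ℕ} (h0 : P i₀) (hb : ∀ i, P i → i ≤ k) :
    ∃ I, i₀ ≤ I ∧ P I ∧ ¬ P (I + 1) := by
  classical
  refine ⟨Nat.findGreatest P k, Nat.le_findGreatest (hb _ h0) h0,
    Nat.findGreatest_spec (P := P) (hb _ h0) h0, fun h1 => ?_⟩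
  have h2 := Nat.le_findGreatest (hb _ h1) h1
  omega

/-- the last family with `2 * r^κ ≤ k` -/
theorem exists_I {rs κ : ℕ} (hrs : 2 ≤ rs) (hκ : 1 ≤ κ) {k i₀ : ℕ}
    (h0 : 2 * rr β rs i₀ ^ κ ≤ k) :
    ∃ I, i₀ ≤ I ∧ 2 * rr β rs I ^ κ ≤ k ∧ k < 2 * rr β rs (I + 1) ^ κ := by
  have hb : ∀ i, 2 * rr β rs i ^ κ ≤ k → i ≤ k := by
    intro i hi
    have h1 : i < rr β rs i := lt_rr hrs i
    have h2 : rr β rs i ≤ rr β rs i ^ κ := Nat.le_self_pow (by omega) _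
    omega
  obtain ⟨I, h1, h2, h3⟩ := exists_last (P := fun i => 2 * rr β rs i ^ κ ≤ k) h0 hb
  exact ⟨I, h1, h2, not_le.1 h3⟩

/-- **choice of the number of families and of the background for the scale `2 ^ k`** -/
theorem choice (β : ℕ) [hβ : Fact (2 ≤ β)] {j κ : ℕ} (hj : 1 ≤ j) (hκ : 1 ≤ κ) (hκ4 : κ ≤ 4)
    (c : ℝ) (C i₀ : ℕ) :
    ∃ K : ℕ, ∀ k, K ≤ k → ∃ I, i₀ ≤ I ∧ (∀ i ≤ I, mS β (2 ^ j) i ∣ 2 ^ k) ∧
      bS β (2 ^ j) I + c / 2 ^ k ≤ Real.exp (-((rr β (2 ^ j) I : ℝ) ^ κ)) ∧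
      bS β (2 ^ j) I ≤ (1 / 2 ^ k) ^ C := by
  have hrs : 2 ≤ 2 ^ j := by
    calc 2 = 2 ^ 1 := by norm_num
      _ ≤ 2 ^ j := Nat.pow_le_pow_right (by norm_num) hj
  obtain ⟨K₁, hK₁⟩ := exists_nat_ge (Real.log (2 * (|c| + 1)) / 0.19)
  refine ⟨max (max 6 K₁) (max (2 * rr β (2 ^ j) i₀ ^ κ) (2 * (C + 8) ^ κ)), fun k hk => ?_⟩
  have hk6 : 6 ≤ k := (le_max_left _ _).trans ((le_max_left _ _).trans hk)
  have hkK : K₁ ≤ k := (le_max_right _ _).trans ((le_max_left _ _).trans hk)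
  have hk0 : 2 * rr β (2 ^ j) i₀ ^ κ ≤ k := (le_max_left _ _).trans ((le_max_right _ _).trans hk)
  have hkC : 2 * (C + 8) ^ κ ≤ k := (le_max_right _ _).trans ((le_max_right _ _).trans hk)
  obtain ⟨I, hI0, hI1, hI2⟩ := exists_I (β := β) hrs hκ hk0
  have hr1 : rr β (2 ^ j) I ≤ rr β (2 ^ j) I ^ κ := Nat.le_self_pow (by omega) _
  -- divisibility
  have hdvd : mS β (2 ^ j) I ∣ 2 ^ k := by
    have e1 : mS β (2 ^ j) I = 2 ^ (3 + j * β ^ I) := by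
      unfold mS rr
      rw [← pow_mul, pow_add]
      norm_num
    rw [e1]
    refine pow_dvd_pow 2 ?_
    have h1 : j * β ^ I < 2 ^ (j * β ^ I) := Nat.lt_two_pow_self
    have h2 : 2 ^ (j * β ^ I) = rr β (2 ^ j) I := by
      unfold rr
      rw [← pow_mul]
    rw [h2] at h1
    omega
  -- the next radius
  have hnext : C + 8 < rr β (2 ^ j) (I + 1) := by
    by_contra h
    have h1 : rr β (2 ^ j) (I + 1) ^ κ ≤ (C + 8) ^ κ := Nat.pow_le_pow_left (not_lt.1 h) κ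
    omega
  have h5 : (C + 8) * k ≤ 2 * rr β (2 ^ j) (I + 1) ^ 5 := by
    have h1 : rr β (2 ^ j) (I + 1) ^ κ ≤ rr β (2 ^ j) (I + 1) ^ 4 :=
      Nat.pow_le_pow_right (by omega) hκ4
    have h2 : rr β (2 ^ j) (I + 1) ^ 5 = rr β (2 ^ j) (I + 1) ^ 4 * rr β (2 ^ j) (I + 1) := by ring
    rw [h2]
    have h3 : k ≤ 2 * rr β (2 ^ j) (I + 1) ^ 4 := by omega
    calc (C + 8) * k ≤ rr β (2 ^ j) (I + 1) * (2 * rr β (2 ^ j) (I + 1) ^ 4) :=
          Nat.mul_le_mul hnext.le h3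
      _ = _ := by ring
  have hb : bS β (2 ^ j) I ≤ (1 / 2 : ℝ) ^ ((C + 8) * k) := by
    unfold bS nS
    exact pow_le_pow_of_le_one (by norm_num) (by norm_num) h5
  refine ⟨I, hI0, fun i hi => (mS_dvd _ hi).trans hdvd, ?_, ?_⟩
  · -- the leads
    have hkr : (0 : ℝ) ≤ k := Nat.cast_nonneg k
    have e2 : ((rr β (2 ^ j) I : ℝ)) ^ κ ≤ k / 2 := by
      have h1 : (2 : ℝ) * (rr β (2 ^ j) I : ℝ) ^ κ ≤ k := by exact_mod_cast hI1
      linarith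
    have e3 : Real.exp (-((k : ℝ) / 2)) ≤ Real.exp (-((rr β (2 ^ j) I : ℝ) ^ κ)) :=
      Real.exp_le_exp.2 (by linarith)
    refine le_trans ?_ e3
    have hl2 : (0.69 : ℝ) ≤ Real.log 2 := by
      have := Real.log_two_gt_d9
      linarith
    have e4 : (1 / 2 : ℝ) ^ k = Real.exp (-(k * Real.log 2)) := by
      rw [← Real.rpow_natCast, Real.rpow_def_of_pos (by norm_num), one_div, Real.log_inv]
      congr 1
      ring
    have e5 : bS β (2 ^ j) I ≤ (1 / 2 : ℝ) ^ k * 1 := by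
      rw [mul_one]
      refine hb.trans (pow_le_pow_of_le_one (by norm_num) (by norm_num) ?_)
      nlinarith
    have e6 : c / 2 ^ k ≤ |c| * (1 / 2 : ℝ) ^ k := by
      rw [div_eq_mul_inv, one_div, inv_pow]
      exact mul_le_mul_of_nonneg_right (le_abs_self c) (by positivity)
    have e7 : bS β (2 ^ j) I + c / 2 ^ k ≤ (|c| + 1) * (1 / 2 : ℝ) ^ k := by linarith
    refine e7.trans ?_
    rw [e4]
    have hc0 : 0 < 2 * (|c| + 1) := by positivity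
    have e8 : Real.log (2 * (|c| + 1)) ≤ 0.19 * k := by
      have h1 : (K₁ : ℝ) ≤ k := by exact_mod_cast hkK
      have h2 := hK₁.trans h1
      rw [div_le_iff₀ (by norm_num)] at h2
      linarith
    have e9 : |c| + 1 ≤ Real.exp (0.19 * k) := by
      have h1 : 2 * (|c| + 1) ≤ Real.exp (0.19 * k) := by
        rw [← Real.exp_log hc0]
        exact Real.exp_le_exp.2 e8
      have h2 : 0 ≤ |c| := abs_nonneg c
      linarith
    calc (|c| + 1) * Real.exp (-(k * Real.log 2))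
        ≤ Real.exp (0.19 * k) * Real.exp (-(k * Real.log 2)) :=
          mul_le_mul_of_nonneg_right e9 (Real.exp_pos _).le
      _ = Real.exp (0.19 * k - k * Real.log 2) := by
          rw [← Real.exp_add]
          congr 1
      _ ≤ Real.exp (-((k : ℝ) / 2)) := by
          refine Real.exp_le_exp.2 ?_
          nlinarith
  · -- the background
    refine hb.trans ?_
    have e1 : ((1 : ℝ) / 2 ^ k) ^ C = (1 / 2 : ℝ) ^ (C * k) := by
      rw [← one_div_pow, ← pow_mul, mul_comm k C]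
    rw [e1]
    refine pow_le_pow_of_le_one (by norm_num) (by norm_num) ?_
    nlinarith

/-- **large tori containing the annulus**: `N = 2 ^ n` is divisible by the scale and by all block
sides -/
theorem exists_N_pow {j k I : ℕ} (h : ∀ i ≤ I, mS β (2 ^ j) i ∣ 2 ^ k) (N₀ : ℕ) :
    ∃ N, N₀ ≤ N ∧ N ≠ 0 ∧ 32 * 2 ^ k ≤ N ∧ 2 ^ k ∣ N ∧ (∃ n, N = 2 ^ n) ∧
      ∀ i ≤ I, mS β (2 ^ j) i ∣ N := by
  refine ⟨2 ^ (k + 5 + N₀), ?_, by positivity, ?_, pow_dvd_pow 2 (by omega), ⟨_, rfl⟩,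
    fun i hi => (h i hi).trans (pow_dvd_pow 2 (by omega))⟩
  · have : N₀ < 2 ^ N₀ := Nat.lt_two_pow_self
    have h2 : 2 ^ N₀ ≤ 2 ^ (k + 5 + N₀) := Nat.pow_le_pow_right (by norm_num) (by omega)
    omega
  · calc 32 * 2 ^ k = 2 ^ (k + 5) := by rw [pow_add]; norm_num [mul_comm]
      _ ≤ 2 ^ (k + 5 + N₀) := Nat.pow_le_pow_right (by norm_num) (by omega)

/-- **block B6b, complete form**: families, background, leads, and the tail of the logarithmic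
times from stage `i₀` on, with rates `η i ≤ (r i)^(-(5 β + 2))` -/
theorem choice_sum (β : ℕ) [hβ : Fact (2 ≤ β)] {j κ : ℕ} (hj : 1 ≤ j) (hκ : 1 ≤ κ) (hκ4 : κ ≤ 4)
    (c : ℝ) (C i₀ : ℕ) {Ca : ℝ} {η : ℕ → ℝ} (hCa : 0 ≤ Ca) (hη0 : ∀ i, 0 ≤ η i)
    (hη : ∀ i, η i ≤ 1 / (rr β (2 ^ j) i : ℝ) ^ (5 * β + 2)) :
    ∃ K : ℕ, ∀ k, K ≤ k → ∃ I, i₀ ≤ I ∧ (∀ i ≤ I, mS β (2 ^ j) i ∣ 2 ^ k) ∧
      bS β (2 ^ j) I + c / 2 ^ k ≤ Real.exp (-((rr β (2 ^ j) I : ℝ) ^ κ)) ∧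
      bS β (2 ^ j) I ≤ (1 / 2 ^ k) ^ C ∧
      ∑ i ∈ Finset.Ico i₀ (I + 1), Ca * η i * Real.log (1 / tS β (2 ^ j) I (i + 1)) ≤
        3 * Ca / rr β (2 ^ j) i₀ := by
  have hrs : 2 ≤ 2 ^ j := by
    calc 2 = 2 ^ 1 := by norm_num
      _ ≤ 2 ^ j := Nat.pow_le_pow_right (by norm_num) hj
  obtain ⟨K, hK⟩ := choice β hj hκ hκ4 c C i₀
  refine ⟨K, fun k hk => ?_⟩
  obtain ⟨I, h1, h2, h3, h4⟩ := hK k hk
  exact ⟨I, h1, h2, h3, h4, htail_poly hrs I i₀ hCa hη0 hη⟩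

end P365T2.H135
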