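import Vale.Agent.P365.T2.H135.ChoiceB6b

/-!
# P365-T2, block B6b, form with a free floor `b = m^(-C)` (227's N4)

`m = 2 ^ k`, `rs = 2 ^ j`.  For `k ≥ K` there is `I ≥ i₀` (the last one with `2 * rr I ≤ k`) such that
* all block sides `mS β rs i`, `i ≤ I`, divide `2 ^ k`,
* `b + c / 2^k ≤ e0S β rs I` for every `b ≤ 1 / 2^k`,
* `exp (-(rr β rs I)^(β+1)) ≤ (1 / 2^k)^C`.
-/

set_option linter.all false

namespace P365T2.H135

open Real Filter Topology P365T2.SeqG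

/-- **choice of the number of families for the scale `2 ^ k`, free floor** -/
theorem choiceF (β : ℕ) [hβ : Fact (2 ≤ β)] {j : ℕ} (hj : 1 ≤ j) (c : ℝ) (C i₀ : ℕ) :
    ∃ K : ℕ, ∀ k, K ≤ k → ∃ I, i₀ ≤ I ∧ (∀ i ≤ I, mS β (2 ^ j) i ∣ 2 ^ k) ∧
      2 * rr β (2 ^ j) I ≤ k ∧ k < 2 * rr β (2 ^ j) (I + 1) ∧
      (∀ b : ℝ, b ≤ 1 / 2 ^ k → b + c / 2 ^ k ≤ e0S β (2 ^ j) I) ∧
      (∀ b : ℝ, (1 / 2 ^ k) ^ C ≤ b → Real.exp (-((rr β (2 ^ j) I : ℝ) ^ (β + 1))) ≤ b) := by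
  have hrs : 2 ≤ 2 ^ j := by
    calc 2 = 2 ^ 1 := by norm_num
      _ ≤ 2 ^ j := Nat.pow_le_pow_right (by norm_num) hj
  obtain ⟨K₁, hK₁⟩ := exists_nat_ge (Real.log (|c| + 1) / 0.19)
  refine ⟨max (max 6 K₁) (max (2 * rr β (2 ^ j) i₀ ^ 1) (2 * (2 * C + 1) ^ β)), fun k hk => ?_⟩
  have hk6 : 6 ≤ k := (le_max_left _ _).trans ((le_max_left _ _).trans hk)
  have hkK : K₁ ≤ k := (le_max_right _ _).trans ((le_max_left _ _).trans hk)
  have hk0 : 2 * rr β (2 ^ j) i₀ ^ 1 ≤ k := (le_max_left _ _).trans ((le_max_right _ _).trans hk)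
  have hkC : 2 * (2 * C + 1) ^ β ≤ k := (le_max_right _ _).trans ((le_max_right _ _).trans hk)
  obtain ⟨I, hI0, hI1, hI2⟩ := exists_I (β := β) hrs le_rfl hk0
  rw [pow_one] at hI1 hI2
  have hkr : (0 : ℝ) ≤ k := Nat.cast_nonneg k
  have hl2 : (0.69 : ℝ) ≤ Real.log 2 := by
    have := Real.log_two_gt_d9
    linarith
  have hl2' : Real.log 2 ≤ 1 := by
    have := Real.log_two_lt_d9
    linarith
  have e4 : (1 / 2 ^ k : ℝ) = Real.exp (-(k * Real.log 2)) := by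
    rw [Real.exp_neg, ← Real.log_pow, Real.exp_log (by positivity), one_div]
  -- the last radius is large
  have hlast : 2 * C < rr β (2 ^ j) I := by
    by_contra h
    have h1 : rr β (2 ^ j) (I + 1) ≤ (2 * C + 1) ^ β := by
      rw [rr_succ]
      exact Nat.pow_le_pow_left (by omega) β
    omega
  refine ⟨I, hI0, fun i hi => (mS_dvd _ hi).trans ?_, hI1, hI2, fun b hb => ?_, fun b hb => ?_⟩
  · have e1 : mS β (2 ^ j) I = 2 ^ (3 + j * β ^ I) := by
      unfold mS rr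
      rw [← pow_mul, pow_add]
      norm_num
    rw [e1]
    refine pow_dvd_pow 2 ?_
    have h1 : j * β ^ I < 2 ^ (j * β ^ I) := Nat.lt_two_pow_self
    have h2 : 2 ^ (j * β ^ I) = rr β (2 ^ j) I := by
      unfold rr
      rw [← pow_mul]
    rw [h2] at h1
    omega
  · -- floor and leads
    have e2 : (rr β (2 ^ j) I : ℝ) ≤ k / 2 := by
      have h1 : (2 : ℝ) * (rr β (2 ^ j) I : ℝ) ≤ k := by exact_mod_cast hI1
      linarith
    have e3 : Real.exp (-((k : ℝ) / 2)) ≤ e0S β (2 ^ j) I := by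
      unfold e0S
      exact Real.exp_le_exp.2 (by linarith)
    refine le_trans ?_ e3
    have e6 : c / 2 ^ k ≤ |c| * (1 / 2 ^ k : ℝ) := by
      rw [div_eq_mul_one_div]
      exact mul_le_mul_of_nonneg_right (le_abs_self c) (by positivity)
    have e7 : b + c / 2 ^ k ≤ (|c| + 1) * (1 / 2 ^ k : ℝ) := by linarith
    refine e7.trans ?_
    rw [e4]
    have hc0 : 0 < |c| + 1 := by positivity
    have e8 : Real.log (|c| + 1) ≤ 0.19 * k := by
      have h1 : (K₁ : ℝ) ≤ k := by exact_mod_cast hkK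
      have h2 := hK₁.trans h1
      rw [div_le_iff₀ (by norm_num)] at h2
      linarith
    have e9 : |c| + 1 ≤ Real.exp (0.19 * k) := by
      rw [← Real.exp_log hc0]
      exact Real.exp_le_exp.2 e8
    calc (|c| + 1) * Real.exp (-(k * Real.log 2))
        ≤ Real.exp (0.19 * k) * Real.exp (-(k * Real.log 2)) :=
          mul_le_mul_of_nonneg_right e9 (Real.exp_pos _).le
      _ = Real.exp (0.19 * k - k * Real.log 2) := by
          rw [← Real.exp_add]
          congr 1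
      _ ≤ Real.exp (-((k : ℝ) / 2)) := by
          refine Real.exp_le_exp.2 ?_
          nlinarith
  · -- lower bound of the floor
    refine le_trans ?_ hb
    rw [e4, ← Real.exp_nat_mul]
    refine Real.exp_le_exp.2 ?_
    have h1 : (k : ℝ) ≤ 2 * (rr β (2 ^ j) I : ℝ) ^ β := by
      rw [← rr_succ_cast]
      exact_mod_cast hI2.le
    have h2 : (2 * C : ℝ) ≤ rr β (2 ^ j) I := by exact_mod_cast hlast.le
    have h3 : (0 : ℝ) ≤ (rr β (2 ^ j) I : ℝ) ^ β := by positivity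
    have h4 : (C : ℝ) * (k * Real.log 2) ≤ (rr β (2 ^ j) I : ℝ) ^ (β + 1) := by
      calc (C : ℝ) * (k * Real.log 2) ≤ C * (k * 1) := by
            gcongr
        _ ≤ C * ((2 * (rr β (2 ^ j) I : ℝ) ^ β) * 1) := by gcongr
        _ = (2 * C : ℝ) * (rr β (2 ^ j) I : ℝ) ^ β := by ring
        _ ≤ rr β (2 ^ j) I * (rr β (2 ^ j) I : ℝ) ^ β := mul_le_mul_of_nonneg_right h2 h3
        _ = _ := by ring
    linarith

/-- the torus `N = 32 * 2^k` of the composition -/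
theorem mS_dvd_32 {β j k I : ℕ} (h : ∀ i ≤ I, mS β (2 ^ j) i ∣ 2 ^ k) :
    ∀ i ≤ I, mS β (2 ^ j) i ∣ 32 * 2 ^ k := fun i hi => (h i hi).mul_left _

end P365T2.H135
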